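import Vale.Agent.P188.All

namespace Vale.Agent.Results.P188.QIRigidity

open Vale.Agent.P188

universe u v

/-- Being virtually polycyclic is a quasi-isometry invariant of finitely generated groups. -/
theorem result {H : Type u} {G : Type v} [Group H] [Group G] (S : Finset H) (T : Finset G)
    (hS : Subgroup.closure (S : Set H) = ⊤) (hT : Subgroup.closure (T : Set G) = ⊤)
    (K C : ℝ) (F : H → G) (hF : IsQuasiIsometry S T K C F) :
    IsVirtuallyPolycyclic H ↔ IsVirtuallyPolycyclic G :=
  main_iff S T hS hT K C F hF

end Vale.Agent.Results.P188.QIRigidity
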